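import Vale.Agent.Results.P079.ASeparableSpaces
import Vale.Agent.Results.P079.ApproximateFixedPoints

/-!
# P079: the results of this folder in one statement

(A) Kirk's problem for reflexive Banach spaces is equivalent to its restriction to separable spaces.
(B) Every point of `C` lies in a closed convex separable `T`-invariant subset of `C`.
(C) Approximate fixed points exist on closed bounded convex sets; fixed points on compact convex sets.
-/

namespace Vale.Agent.Results.P079.AAAllResults

open Set TopologicalSpace ASeparableSpaces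

theorem result :
    ((∀ (Z : Type) [NormedAddCommGroup Z] [NormedSpace ℝ Z] [CompleteSpace Z]
        [SeparableSpace Z], Reflexive Z → FPP Z) ↔
      (∀ (X : Type) [NormedAddCommGroup X] [NormedSpace ℝ X] [CompleteSpace X],
        Reflexive X → FPP X)) ∧
    (∀ (X : Type) [NormedAddCommGroup X] [NormedSpace ℝ X] (C : Set X) (T : X → X) (x₀ : X),
      IsClosed C → Convex ℝ C → MapsTo T C C → (∀ a ∈ C, ∀ b ∈ C, ‖T a - T b‖ ≤ ‖a - b‖) →
      x₀ ∈ C →
      ∃ D : Set X, D ⊆ C ∧ x₀ ∈ D ∧ IsClosed D ∧ Convex ℝ D ∧ IsSeparable D ∧ MapsTo T D D ∧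
        IsSeparable ((Submodule.span ℝ D).topologicalClosure : Set X)) ∧
    (∀ (X : Type) [NormedAddCommGroup X] [NormedSpace ℝ X] [CompleteSpace X]
      (C : Set X) (T : X → X), C.Nonempty → Convex ℝ C → MapsTo T C C →
      (∀ a ∈ C, ∀ b ∈ C, ‖T a - T b‖ ≤ ‖a - b‖) →
      ((IsClosed C → Bornology.IsBounded C → ∀ ε : ℝ, 0 < ε → ∃ x ∈ C, ‖x - T x‖ ≤ ε) ∧
        (IsCompact C → ∃ x ∈ C, T x = x))) :=
  ⟨ASeparableSpaces.result,
    fun _ _ _ C T x₀ hC hcv hT hn hx => SeparableReduction.result C hC hcv T hT hn x₀ hx,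
    ApproximateFixedPoints.result⟩

end Vale.Agent.Results.P079.AAAllResults
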